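import Vale.Agent.P262F.Final

/-!
P262: the Euclidean Steinitz-Bergström conjecture. The Euclidean Steinitz constant satisfies
`c √d ≤ S_2(d) ≤ C √d` with absolute constants, for zero-sum families of every length.
-/

open Vale.Agent.P262 in
theorem Vale.Agent.Results.P262.SteinitzSqrt.result :
    ∃ c C : ℝ, 0 < c ∧ 0 < C ∧ ∀ d : ℕ, 1 ≤ d →
      BddAbove (steinitzValues d) ∧
        c * √(d : ℝ) ≤ steinitzConst d ∧
          steinitzConst d ≤ C * √(d : ℝ) :=
  Vale.Agent.P262F.steinitz_sqrt
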